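import Crest.Agent.N325.Ip.Pot
import Crest.Agent.N325.Op.Prog

/-!
# Row 325 (helper53): barrier estimates that need no quiescence
-/

set_option autoImplicit false
open Finset

namespace Crest.Agent.N325.Lb

open Crest.Agent.N325.Ip Crest.Agent.N325.Ipm Crest.Agent.N325.Op

variable {P : Pm} {B : Bn} {e : ℕ} {A : Arc} {x c : ℤ} {N : Net}

/-- more flow on an arc without price costs only the upper barrier -/
theorem bar_raise (hD : 1 ≤ P.D) (hs0 : 1 ≤ P.s0) (hA : B.arc e A) (hp : A.p = 0)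
    (h1 : 0 < x + A.o1) (hc : 0 ≤ c) (h3 : (P.s0 : ℤ) ≤ A.o3 - (x + c)) {u : ℝ}
    (hu : (c : ℝ) ≤ u * ((A.o3 : ℝ) - (x + c))) : bar P B A (x + c) ≤ bar P B A x + A.c3 * u := by
  have d : (0 : ℝ) < P.D := by exact_mod_cast hD
  have t := bar_tangent (x := x + c) (c := -c) hD hs0 hA (by omega) (by omega) (by omega) (by omega)
  obtain ⟨a1, a2, -⟩ := slacks (x := x + c) hD hA (by omega) (by omega)
  have w1 := mul_nonneg (Nat.cast_nonneg (α := ℝ) A.c1) (wt_pos (s0 := σ0 P) a1.1).le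
  have w2 := mul_nonneg (Nat.cast_nonneg (α := ℝ) A.c2) (wt_pos (s0 := σ0 P) a2.1).le
  have h3' : (P.s0 : ℝ) ≤ (A.o3 : ℝ) - ((x + c : ℤ) : ℝ) := by exact_mod_cast h3
  have s0 : (0 : ℝ) < P.s0 := by exact_mod_cast hs0
  have w3 : wt (σ0 P) (s3 P A (x + c)) = P.D / ((A.o3 : ℝ) - ((x + c : ℤ) : ℝ)) := wt_eq hD h3'
  have c0 : (0 : ℝ) ≤ c / P.D := div_nonneg (by exact_mod_cast hc) d.le
  rw [add_neg_cancel_right, gr, w3, hp] at t
  push_cast at t h3'
  have k : P.D / ((A.o3 : ℝ) - (x + c)) * (c / P.D) ≤ u := by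
    rw [div_mul_div_comm, mul_comm (P.D : ℝ), mul_div_mul_right _ _ d.ne',
      div_le_iff₀ (s0.trans_le h3')]
    exact hu
  have k' := mul_le_mul_of_nonneg_left k (Nat.cast_nonneg (α := ℝ) A.c3)
  have := mul_nonneg w1 c0; have := mul_nonneg w2 c0
  rw [neg_div] at t
  push_cast at *
  nlinarith

theorem log_terms (hA : B.arc e A) (h1 : 0 < x + A.o1) (h3 : 0 < A.o3 - x) :
    Real.log ((x : ℝ) + A.o1) ≤ Real.log B.Mu ∧ Real.log ((x : ℝ) + A.o2) ≤ Real.log B.Mu ∧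
      Real.log ((A.o3 : ℝ) - x) ≤ Real.log B.Mu := by
  obtain ⟨-, -, -, -, -, -, -, o12, oM⟩ := hA
  have a1 : (0 : ℝ) < (x : ℝ) + A.o1 := by exact_mod_cast h1
  have a3 : (0 : ℝ) < (A.o3 : ℝ) - x := by exact_mod_cast h3
  have b1 : (A.o1 : ℝ) ≤ A.o2 := by exact_mod_cast o12
  have b2 : (A.o2 : ℝ) + A.o3 ≤ B.Mu := by exact_mod_cast oM
  have b3 : (0 : ℝ) ≤ A.o1 := Nat.cast_nonneg _
  exact ⟨Real.log_le_log a1 (by linarith), Real.log_le_log (by linarith) (by linarith),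
    Real.log_le_log a3 (by linarith)⟩

/-- lower bound by the first and by the second barrier -/
theorem le_bar (hD : 1 ≤ P.D) (hs0 : 1 ≤ P.s0) (hA : B.arc e A) (h1 : 0 < x + A.o1)
    (h3 : 0 < A.o3 - x) : A.p * (((x : ℝ) + A.o1) / P.D) +
      A.c1 * (Real.log B.Mu - Real.log ((x : ℝ) + A.o1)) ≤ bar P B A x ∧
      A.c2 * (Real.log B.Mu - Real.log ((x : ℝ) + A.o2)) ≤ bar P B A x := by
  have k := barL_le_bar hD hs0 hA h1 h3
  obtain ⟨a, b, c⟩ := log_terms hA h1 h3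
  have a1 : (0 : ℝ) < (x : ℝ) + A.o1 := by exact_mod_cast h1
  have := mul_nonneg (Nat.cast_nonneg (α := ℝ) A.c1) (sub_nonneg.2 a)
  have := mul_nonneg (Nat.cast_nonneg (α := ℝ) A.c2) (sub_nonneg.2 b)
  have := mul_nonneg (Nat.cast_nonneg (α := ℝ) A.c3) (sub_nonneg.2 c)
  have : (0 : ℝ) ≤ A.p * (((x : ℝ) + A.o1) / P.D) := by positivity
  unfold barL at k
  constructor <;> linarith

/-- upper bound that is exact in the first barrier -/
theorem bar_le_fst (hD : 1 ≤ P.D) (hs0 : 1 ≤ P.s0) (hA : B.arc e A) (h : Big P A x) :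
    bar P B A x ≤ A.p * (((x : ℝ) + A.o1) / P.D) +
      A.c1 * (Real.log B.Mu - Real.log ((x : ℝ) + A.o1)) + (A.c2 + A.c3) * Real.log B.Mu := by
  rw [h.bar_eq hD hs0 hA, barL]
  obtain ⟨-, a, b⟩ := h.cast hA
  have s0 : (1 : ℝ) ≤ P.s0 := by exact_mod_cast hs0
  have := mul_nonneg (Nat.cast_nonneg (α := ℝ) A.c2) (Real.log_nonneg (s0.trans a))
  have := mul_nonneg (Nat.cast_nonneg (α := ℝ) A.c3) (Real.log_nonneg (s0.trans b))
  linarith

/-- crude upper bound -/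
theorem bar_le_all (hD : 1 ≤ P.D) (hs0 : 1 ≤ P.s0) (hA : B.arc e A) (h : Big P A x) :
    bar P B A x ≤ A.p * (((x : ℝ) + A.o1) / P.D) + (A.c1 + A.c2 + A.c3) * Real.log B.Mu := by
  have k := bar_le_fst hD hs0 hA h
  have s0 : (1 : ℝ) ≤ P.s0 := by exact_mod_cast hs0
  have := mul_nonneg (Nat.cast_nonneg (α := ℝ) A.c1) (Real.log_nonneg (s0.trans (h.cast hA).1))
  linarith

/-- refunds: moves by amounts in `[0, b]` on arcs without price that stay far below the upper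
barrier are admissible and cost at most `1` each -/
theorem refunds (hD : 1 ≤ P.D) (hs0 : 1 ≤ P.s0) (hsm : B.sm ≤ P.s0) (sm1 : 1 ≤ B.sm) {b : ℤ}
    (hb : (P.s0 : ℤ) ≤ b) {l : List (ℕ × ℤ)}
    (h : ∀ p ∈ l, p.1 ∈ N.E ∧ B.arc p.1 (N.arc p.1) ∧ (N.arc p.1).p = 0 ∧ (N.arc p.1).c3 = 1 ∧
      (B.sm : ℤ) ≤ N.X p.1 + (N.arc p.1).o1 ∧ 0 ≤ p.2 ∧ p.2 ≤ b ∧
      N.X p.1 + (l.length + 1) * b ≤ (N.arc p.1).o3) :
    MOks B N l ∧ pot P B (mvsN N l) ≤ pot P B N + l.length := by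
  induction l generalizing N with
  | nil => exact ⟨trivial, by simp [mvsN]⟩
  | cons p l ih =>
    obtain ⟨a1, a2, a3, a4, a5, a6, a7, a8⟩ := h p List.mem_cons_self
    simp only [List.length_cons, Nat.cast_add, Nat.cast_one] at a8 h ⊢
    have l0 : (0 : ℤ) ≤ l.length * b := mul_nonneg (Nat.cast_nonneg _) (by omega)
    obtain ⟨k1, k2⟩ := ih (N := mvN N p.1 p.2) fun q hq => by
      obtain ⟨b1, b2, b3, b4, b5, b6, b7, b8⟩ := h q (List.mem_cons_of_mem _ hq)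
      rw [mvN_E a1, mvN_arc, mvN_X, Function.update_apply]
      refine ⟨b1, b2, b3, b4, ?_, b6, b7, ?_⟩
      · split_ifs with c
        · rw [← c]; omega
        · exact b5
      · split_ifs with c
        · rw [← c]; linarith
        · linarith
    refine ⟨⟨a1, ⟨by omega, by linarith [show (B.sm : ℤ) ≤ P.s0 by exact_mod_cast hsm]⟩, k1⟩, ?_⟩
    have r := bar_raise (x := N.X p.1) (c := p.2) (u := 1) hD hs0 a2 a3 (by omega) a6
      (by linarith) (by
        have : p.2 ≤ (N.arc p.1).o3 - (N.X p.1 + p.2) := by linarith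
        rw [one_mul]; exact_mod_cast this)
    rw [a4] at r
    have := pot_mvN (P := P) (B := B) (d := p.2) a1
    change pot P B (mvsN (mvN N p.1 p.2) l) ≤ _
    push_cast at r
    linarith

end Crest.Agent.N325.Lb
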