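import Crest.Agent.N325.P2.Defs

/-!
# Row 325 (helper53): LABEL — the combinatorial data
-/

set_option autoImplicit false
open Finset

namespace Crest.Agent.N325.Lb

open Crest.Agent.N325.Ip Crest.Agent.N325.Mt Crest.Agent.N325.Bf Crest.Agent.N325.P2

/-- `d'` arises from `d` by labelling `v` inner and its mate `u` outer -/
structure LbD (G : Gf) (d d' : Dt) (v u : ℕ) : Prop where
  vn : v < G.n
  v0 : d.st.get v = 0
  mv : d.mt.get v = u
  st : ∀ w, d'.st.get w = if w = u then 2 else if w = v then 1 else d.st.get w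
  cls : d'.cls = d.cls
  mem : ∀ w, d'.mem.get w = if w = u then [u] else d.mem.get w
  cw : ∀ w, d'.cw.get w = if w = u then 1 else d.cw.get w
  bs : ∀ w, d'.bs.get w = if w = u then u else d.bs.get w
  mt : d'.mt = d.mt
  pr : ∀ o < G.nd, d'.pr.get o = if G.hd o = u then false else d.pr.get o
  Q : ∀ o, o ∈ d'.Q ↔ (o < G.nd ∧ G.tl.get o = u) ∨ o ∈ d.Q
  len : d'.Q.length ≤ d.Q.length + 3

variable {G : Gf} {d d' : Dt} {v u : ℕ}

theorem rv_lt (w : G.WF) {o : ℕ} (h : o < G.nd) : rv o < G.nd := by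
  have := w.even; unfold rv; split_ifs <;> omega
theorem hd_rv (G : Gf) (o : ℕ) : G.hd (rv o) = G.tl.get o := by simp [Gf.hd]
theorem hd_lt (w : G.WF) {o : ℕ} (h : o < G.nd) : G.hd o < G.n := w.tl_lt _ (rv_lt w h)

namespace LbD

theorem facts (h : LbD G d d' v u) (c : Cmb G d) : u < G.n ∧ d.st.get u = 0 ∧ u ≠ v ∧
    d.mt.get u = v ∧ d.cls.get u = u ∧ d.cls.get v = v := by
  have a := c.unl v h.vn h.v0
  have b := c.isM.mem (mem_range.2 h.vn)
  have e := c.isM.inv (mem_range.2 h.vn)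
  rw [h.mv] at a b e
  exact ⟨mem_range.1 b, a.1, a.2, e, c.cls_ne u (mem_range.1 b) (by omega),
    c.cls_ne v h.vn (by have := h.v0; omega)⟩

theorem isC_iff (h : LbD G d d' v u) (c : Cmb G d) (w : ℕ) : isC G d' w ↔ w = u ∨ isC G d w := by
  obtain ⟨a1, a2, a3, a4, a5, a6⟩ := h.facts c
  have := h.v0
  unfold isC
  rw [h.st, h.cls]
  by_cases k : w = u
  · simp [k, a1, a5]
  · by_cases k' : w = v
    · subst k'; simp [k, this]
    · simp [k, k']

theorem ne_of_isC (h : LbD G d d' v u) (c : Cmb G d) {w : ℕ} (k : isC G d w) : w ≠ u ∧ w ≠ v := by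
  have := (h.facts c).2.1; have := h.v0; have := k.2.1
  constructor <;> rintro rfl <;> omega

theorem ne_of_st (h : LbD G d d' v u) (c : Cmb G d) {w : ℕ} (k : d.st.get w ≠ 0) :
    w ≠ u ∧ w ≠ v ∧ d'.st.get w = d.st.get w := by
  have a := (h.facts c).2.1; have b := h.v0
  have x : w ≠ u := fun e => k (e ▸ a)
  have y : w ≠ v := fun e => k (e ▸ b)
  exact ⟨x, y, by rw [h.st, if_neg x, if_neg y]⟩

theorem keep (h : LbD G d d' v u) (c : Cmb G d) {w i : ℕ} (k : d.st.get w = i + 1) :
    d'.st.get w = i + 1 := (h.ne_of_st c (by omega)).2.2.trans k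

theorem cmb (h : LbD G d d' v u) (c : Cmb G d) : Cmb G d' := by
  obtain ⟨a1, a2, a3, a4, a5, a6⟩ := h.facts c
  have v0 := h.v0; have mv := h.mv; have vn := h.vn
  have su : d'.st.get u = 2 := by simp [h.st]
  have sv : d'.st.get v = 1 := by simp [h.st, a3.symm]
  have so : ∀ w, w ≠ u → w ≠ v → d'.st.get w = d.st.get w := fun w a b => by simp [h.st, a, b]
  have cu : ∀ w < G.n, d.st.get w = 2 → d.cls.get w ≠ u := fun w a b =>
    (h.ne_of_isC c (c.out w a b)).1
  refine ⟨h.mt ▸ c.isM, fun w hw => ?_, fun w hw k => ?_, fun w hw k => ?_, fun w hw k => ?_,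
    fun w hw k => ?_, fun w k => ?_, fun w k x => ?_, fun w k => ?_, fun w k => ?_,
    fun w k x hx ne => ?_, fun w k => ?_, fun o ho k => ?_⟩
  · have := c.st_le w hw
    rw [h.st]; split_ifs <;> omega
  · rw [h.cls]
    by_cases e : w = v
    · rw [e, a6]
    · have e' : w ≠ u := fun q => k (q ▸ su)
      exact c.cls_ne w hw (so w e' e ▸ k)
  · have e : w ≠ u := fun q => by rw [q] at k; omega
    have e' : w ≠ v := fun q => by rw [q] at k; omega
    rw [so w e e'] at k
    have i := c.isM.inv (mem_range.2 hw)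
    rw [h.mt, so _ (fun q => e' (by rw [← i, q, a4])) fun q => e (by rw [← i, q, mv])]
    exact c.unl w hw k
  · rw [h.mt, h.cls, h.bs]
    by_cases e : w = v
    · rw [e, mv, a5]; simp [su]
    · have e' : w ≠ u := fun q => by rw [q] at k; omega
      rw [so w e' e] at k
      obtain ⟨p, q⟩ := c.inn w hw k
      rw [(h.ne_of_st c (by omega)).2.2,
        if_neg (cu _ (mem_range.1 (c.isM.mem (mem_range.2 hw))) p)]
      exact ⟨p, q⟩
  · rw [h.isC_iff c, h.cls]
    by_cases e : w = u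
    · left; rw [e, a5]
    · have e' : w ≠ v := fun q => by rw [q] at k; omega
      exact .inr (c.out w hw (so w e e' ▸ k))
  · rw [h.mem]; split_ifs with e
    · exact List.nodup_singleton _
    · exact c.nodup w (((h.isC_iff c w).1 k).resolve_left e)
  · rw [h.mem, h.cls]; split_ifs with e
    · rw [List.mem_singleton, e]
      refine ⟨fun q => by rw [q]; exact ⟨a1, su, a5⟩, fun ⟨p, q, r⟩ => by_contra fun ne => ?_⟩
      have e' : x ≠ v := fun z => by rw [z] at q; omega
      exact cu x p (so x ne e' ▸ q) r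
    · rw [c.mem w (((h.isC_iff c w).1 k).resolve_left e)]
      refine and_congr_right fun _ => ⟨fun ⟨p, q⟩ => ⟨h.keep c p, q⟩,
        fun ⟨p, q⟩ => ⟨?_, q⟩⟩
      have e1 : x ≠ u := fun z => e (by rw [← q, z, a5])
      have e2 : x ≠ v := fun z => by rw [z] at p; omega
      exact so x e1 e2 ▸ p
  · rw [h.mem, h.cw]; split_ifs with e
    · rfl
    · exact c.cw w (((h.isC_iff c w).1 k).resolve_left e)
  · rw [h.mem, h.bs, h.mt]; split_ifs with e
    · exact ⟨List.mem_singleton_self _, .inr (by rw [a4, sv])⟩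
    · obtain ⟨p, q⟩ := c.bs w (((h.isC_iff c w).1 k).resolve_left e)
      exact ⟨p, q.imp id fun q => h.keep c q⟩
  · rw [h.bs] at ne
    rw [h.mem] at hx ⊢
    rw [h.mt]
    split_ifs at hx ne ⊢ with e
    · exact absurd (List.mem_singleton.1 hx) ne
    · exact c.inside w (((h.isC_iff c w).1 k).resolve_left e) x hx ne
  · rw [h.mem]; split_ifs with e
    · simpa using FC.single u
    · exact c.fc w (((h.isC_iff c w).1 k).resolve_left e)
  · rw [h.pr o ho] at k
    split_ifs at k with e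
    obtain ⟨p, q, r⟩ := c.pr o ho k
    rw [h.mt, (h.ne_of_st c (by omega)).2.2, h.st, if_neg e]
    refine ⟨p, ?_, r⟩
    split_ifs <;> omega

theorem qok (h : LbD G d d' v u) (w : G.WF) (c : Cmb G d) (q : QOk G d) : QOk G d' := by
  refine ⟨fun o k => ((h.Q o).1 k).elim (·.1) (q.lt o), fun o ho => ?_⟩
  by_cases e : G.tl.get o = u
  · exact .inl ((h.Q o).2 (.inl ⟨ho, e⟩))
  by_cases e' : G.hd o = u
  · exact .inr (.inr ⟨by simp [h.st, e'], (h.Q _).2 (.inl ⟨rv_lt w ho, e'⟩)⟩)
  rcases q.cmp o ho with k | k | k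
  · exact .inl ((h.Q o).2 (.inr k))
  · refine .inr (.inl ?_)
    unfold Done at k ⊢
    rw [h.pr o ho, if_neg e', h.mt, h.cls]
    rcases k with k | k | k | k
    · left; rw [h.st, if_neg e]; split_ifs <;> omega
    · exact .inr (.inl k)
    · exact .inr (.inr (.inl k))
    · exact .inr (.inr (.inr ⟨h.keep c k.1, k.2⟩))
  · exact .inr (.inr ⟨h.keep c k.1, (h.Q _).2 (.inr k.2)⟩)

theorem filt0 (h : LbD G d d' v u) (c : Cmb G d) : (range G.n).filter (d.st.get · = 0) =
    insert v (insert u ((range G.n).filter (d'.st.get · = 0))) := by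
  obtain ⟨a1, a2, a3, -⟩ := h.facts c
  have := h.v0; have := h.vn; have := a3.symm
  ext w
  simp only [mem_filter, mem_range, mem_insert, h.st]
  by_cases e : w = u
  · simp [*]
  · by_cases e' : w = v <;> simp [*]

theorem filt1 (h : LbD G d d' v u) (c : Cmb G d) : (range G.n).filter (d'.st.get · = 1) =
    insert v ((range G.n).filter (d.st.get · = 1)) := by
  obtain ⟨a1, a2, a3, -⟩ := h.facts c
  have := h.v0; have := h.vn; have := a3.symm
  ext w
  simp only [mem_filter, mem_range, mem_insert, h.st]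
  by_cases e : w = u
  · simp [*]
  · by_cases e' : w = v <;> simp [*]

theorem filt2 (h : LbD G d d' v u) (c : Cmb G d) : (range G.n).filter (d'.st.get · = 2) =
    insert u ((range G.n).filter (d.st.get · = 2)) := by
  obtain ⟨a1, a2, a3, -⟩ := h.facts c
  have := h.v0; have := h.vn; have := a3.symm
  ext w
  simp only [mem_filter, mem_range, mem_insert, h.st]
  by_cases e : w = u
  · simp [*]
  · by_cases e' : w = v <;> simp [*]

theorem filtC (h : LbD G d d' v u) (c : Cmb G d) : (range G.n).filter (isC G d') =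
    insert u ((range G.n).filter (isC G d)) := by
  have := (h.facts c).1
  ext w
  simp only [mem_filter, mem_range, mem_insert, h.isC_iff c]
  by_cases e : w = u <;> simp [*]

variable {T : Type} {X : Cx T}

/-- the change of the credits -/
theorem psi (h : LbD X.G d d' v u) (c : Cmb X.G d) : X.Ψ d' ≤ X.Ψ d - 9 * X.C.Z + X.C.K +
    2 * X.C.Z * (lM X.P X.Bd + Real.log 2) := by
  obtain ⟨a1, a2, a3, a4, a5, a6⟩ := h.facts c
  have v0 := h.v0
  have n0 : X.nS d 0 = X.nS d' 0 + 2 := by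
    rw [Cx.nS, Cx.nS, h.filt0 c, card_insert_of_notMem (by simp [h.st, a3.symm]),
      card_insert_of_notMem (by simp [h.st])]
  have n1 : X.nS d' 1 = X.nS d 1 + 1 := by
    rw [Cx.nS, Cx.nS, h.filt1 c, card_insert_of_notMem (by simp [v0])]
  have th : X.Th d' = X.C.K + X.Th d := by
    rw [Cx.Th, Cx.Th, h.filt2 c, sum_insert (by simp [a2]), h.cls, a5, h.cw, if_pos rfl]
    rw [Nat.log_one_right, Nat.sub_zero]
    refine congrArg _ (sum_congr rfl fun w hw => ?_)
    obtain ⟨p, q⟩ := mem_filter.1 hw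
    rw [h.cw, if_neg (h.ne_of_isC c (c.out w (mem_range.1 p) q)).1]
  have of : X.offs d' = X.offs d - 2 * X.C.Z * (lM X.P X.Bd + Real.log 2) := by
    rw [Cx.offs, Cx.offs, h.filtC c, sum_insert (by simp [isC, a2]), n0, h.cw, if_pos rfl,
      sum_congr rfl fun w hw => by rw [h.cw, if_neg (h.ne_of_isC c (mem_filter.1 hw).2).1]]
    push_cast
    rw [one_add_one_eq_two]; ring
  have l : (d'.Q.length : ℝ) ≤ d.Q.length + 3 := by exact_mod_cast h.len
  have l' := mul_le_mul_of_nonneg_left l (Nat.cast_nonneg (α := ℝ) X.C.Z)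
  rw [Cx.Ψ, Cx.Ψ, of, n0, n1, th, h.mt]
  push_cast
  linarith

end LbD

end Crest.Agent.N325.Lb
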