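import Crest.Agent.N325.Lb.Net
import Crest.Agent.N325.Op.Gap

/-!
# Row 325 (helper53): the event LABEL
-/

set_option autoImplicit false
open Finset

namespace Crest.Agent.N325.P2

open Crest.Agent.N325.Tw Crest.Agent.N325.Ip Crest.Agent.N325.Mt Crest.Agent.N325.Bf
  Crest.Agent.N325.Op Crest.Agent.N325.Lb

/-- switch the reverse dart off and push the dart -/
def lb1 (o : ℕ) (p : Arr Bool × List ℕ) : Arr Bool × List ℕ := (p.1.set (rv o) false, o :: p.2)

/-- the refund of the reverse of the dart `o` -/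
def lbMv (G : Gf) (d : Dt) (x : Arr ℤ) (o : ℕ) : R (ℕ × ℤ) := do
  let c ← nat (5 * d.cls.get (G.hd o) + 2)
  pure (c, x.get (5 * rv o))

/-- **LABEL**: `v` becomes inner, its mate a new class -/
def labEv {T : Type} (E : Env T) (s : S T) (v : ℕ) : R (S T) := do
  let u := s.2.mt.get v
  let l ← filterP (fun o => s.2.pr.get (rv o)) (E.G.adj.get u)
  let ids ← mapL (fun o => nat (5 * rv o)) l
  let e4 ← nat (5 * v + 4)
  let r ← gets E.run E.P (e4 :: ids) (s.1, Arr.cst 0)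
  let m ← mapL (lbMv E.G s.2 r.2) l
  let s1 ← mvs E.run E.P m r.1
  let dl ← mapP (fun e => ((e, true, none) : Ox)) ids
  let e3 ← nat (5 * u + 3)
  let e5 ← nat (5 * u + 4)
  let e1 ← nat (5 * v + 1)
  let e2 ← nat (5 * u + 2)
  let A1 ← arcN (capA (v + 1) (u + 1) E.C.B)
  let A2 ← arcN (snkA E.C u 2)
  let s2 ← ops E.run E.P ((e4, true, none) :: (e3, true, none) :: (e5, true, none) ::
    (e1, false, some (A1, r.2.get e4)) :: (e2, false, some (A2, r.2.get e4)) :: dl) s1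
  let p ← foldP lb1 (E.G.adj.get u) (s.2.pr, s.2.Q)
  pure (s2, ⟨(s.2.st.set v 1).set u 2, s.2.cls, s.2.mem.set u [u], s.2.cw.set u 1,
    s.2.bs.set u u, s.2.mt, p.1, p.2⟩)

theorem foldl_lb1 (l : List ℕ) (p : Arr Bool × List ℕ) :
    (∀ o, (l.foldl (fun s a => lb1 a s) p).1.get o = if rv o ∈ l then false else p.1.get o) ∧
      (l.foldl (fun s a => lb1 a s) p).2 = l.reverse ++ p.2 := by
  induction l generalizing p with
  | nil => simp
  | cons a l ih =>
    rw [List.foldl_cons]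
    refine ⟨fun o => ?_, by rw [(ih _).2]; simp [lb1]⟩
    rw [(ih _).1]
    by_cases k : rv o ∈ l
    · simp [k]
    · by_cases e : o = rv a
      · simp [e, lb1]
      · have : rv o ≠ a := fun q => e (by rw [← q, rv_rv])
        simp [k, this, lb1, Arr.get_set_ne _ e]

theorem lbD_of {G : Gf} {d : Dt} {v : ℕ} (w : G.WF) (c : Cmb G d) (hv : v < G.n)
    (v0 : d.st.get v = 0) : LbD G d ⟨(d.st.set v 1).set (d.mt.get v) 2, d.cls,
      d.mem.set (d.mt.get v) [d.mt.get v], d.cw.set (d.mt.get v) 1,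
      d.bs.set (d.mt.get v) (d.mt.get v), d.mt,
      ((G.adj.get (d.mt.get v)).foldl (fun s a => lb1 a s) (d.pr, d.Q)).1,
      ((G.adj.get (d.mt.get v)).foldl (fun s a => lb1 a s) (d.pr, d.Q)).2⟩ v (d.mt.get v) := by
  have hu := c.mt_lt hv
  refine ⟨hv, v0, rfl, fun _ => rfl, rfl, fun _ => rfl, fun _ => rfl, fun _ => rfl, rfl,
    fun o ho => ?_, fun o => ?_, ?_⟩
  · simp only [(foldl_lb1 _ _).1, w.mem _ hu, w.rv_lt ho, true_and, Gf.tl_rv]
  · simp only [(foldl_lb1 _ _).2, List.mem_append, List.mem_reverse, w.mem _ hu]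
  · have := w.deg (d.mt.get v)
    simp only [(foldl_lb1 _ _).2, List.length_append, List.length_reverse]; omega

theorem log_three_le : Real.log 3 ≤ 6 / 5 := by
  have a := Real.log_two_lt_d9
  have b := log_sub_le (a := 3) (b := 2) (t := 1 / 2) (by norm_num) (by norm_num) (by norm_num)
  linarith

namespace Cx
variable {T : Type} {X : Cx T} {s : St T} {N : Net} {d d' : Dt} {v u : ℕ}

theorem Inv.pos' (h : X.Ok) (i : X.I s N) (a : Arcs X.P.D X.C X.G d N) :
    ∀ e ∈ N.E, 0 < N.X e ∧ N.X e < (N.arc e).o3 := fun e he => by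
  have := Inv.pos h i he
  rw [a.arc e he, arcOf_o1] at this
  rw [a.arc e he]; omega

/-- a pending sink pays its normalisation up to `log 3` -/
theorem Ok.le_pend (h : X.Ok) (i : X.I s N) (a : Arcs X.P.D X.C X.G d N) (hv : 5 * v + 4 ∈ N.E) :
    2 * X.C.Z * (lM X.P X.Bd - 6 / 5) ≤ bar X.P X.Bd (N.arc (5 * v + 4)) (N.X (5 * v + 4)) := by
  have p := Inv.pos h i hv
  have k := (le_bar h.D_pos h.s0_pos (h.ip.view i _ hv).2.1 p.1 p.2).2
  refine le_trans ?_ k
  rw [a.arc _ hv, arcOf4] at p ⊢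
  simp only [aU] at p ⊢
  have D0 : (0 : ℝ) < X.P.D := by exact_mod_cast h.D_pos
  have M0 : (0 : ℝ) < X.Bd.Mu := by
    have := h.n_le_M; rw [← h.Mu]; exact_mod_cast (by omega : 0 < X.C.M)
  have x0 : (0 : ℝ) < N.X (5 * v + 4) := by exact_mod_cast (by omega : 0 < N.X (5 * v + 4))
  have x1 : (N.X (5 * v + 4) : ℝ) ≤ 2 * X.P.D := by
    exact_mod_cast (by omega : N.X (5 * v + 4) ≤ 2 * X.P.D)
  have l : Real.log ((N.X (5 * v + 4) : ℝ) + X.P.D) ≤ Real.log (3 * X.P.D) :=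
    Real.log_le_log (by positivity) (by linarith)
  rw [Real.log_mul (by norm_num) D0.ne'] at l
  rw [lM, Real.log_div M0.ne' D0.ne']
  push_cast
  exact mul_le_mul_of_nonneg_left (by linarith [log_three_le]) (by positivity)

theorem Ok.refunds (h : X.Ok) (i : X.I s N) (a : Arcs X.P.D X.C X.G d N) (c : Cmb X.G d)
    (hu : u < X.G.n) : MOks X.Bd N (mvL X.G d u N.X) ∧
      pot X.P X.Bd (mvsN N (mvL X.G d u N.X)) ≤ pot X.P X.Bd N + 3 := by
  have len : (mvL X.G d u N.X).length ≤ 3 := by rw [mvL, List.length_map]; exact len_inL h.wf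
  have p := Inv.pos' h i a
  have := h.BD_le; have := h.B.2; have := h.lam_le'; have := h.sm
  obtain ⟨k1, k2⟩ := Lb.refunds (N := N) (l := mvL X.G d u N.X) (b := X.C.B) h.D_pos h.s0_pos
    h.sm.2.1 h.sm.1 (by omega) fun q hq => by
      obtain ⟨o, ho, rfl⟩ := List.mem_map.1 hq
      obtain ⟨b0, b1, b2, b3, b4⟩ := inL_arcs a h.wf c hu ho
      have x1 := out_le a c p b0 b1 (by rw [b2]; rfl)
      have x2 := out_le a c p b0 b3 (by rw [b4]; rfl)
      have : ((mvL X.G d u N.X).length + 1 : ℤ) * X.C.B ≤ 4 * X.C.B :=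
        mul_le_mul_of_nonneg_right (by omega) (by positivity)
      refine ⟨b3, (h.ip.view i _ b3).2.1, by rw [b4]; rfl, by rw [b4]; rfl,
        (h.ip.view i _ b3).2.2.1.1, (p _ b1).1.le, x1, ?_⟩
      rw [b4]; simp only [snkA]; omega
  have : ((mvL X.G d u N.X).length : ℝ) ≤ 3 := by exact_mod_cast len
  exact ⟨k1, by linarith⟩

/-- the two new arcs -/
theorem Ok.lb_big (h : X.Ok) {y : ℤ} (y1 : (99 * X.P.D : ℤ) ≤ 100 * y) (y2 : y ≤ 2 * X.P.D) :
    Big X.P (capA (v + 1) (u + 1) X.C.B) y ∧ Big X.P (snkA X.C u 2) y := by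
  have := h.BD_le; have := h.B.2; have := h.lam_le'
  exact ⟨h.big rfl (by omega) (by simp only [capA]; omega),
    h.big rfl (by omega) (by simp only [snkA]; omega)⟩

theorem Ok.lb_pot (h : X.Ok) (i : X.I s N) (a : Arcs X.P.D X.C X.G d N) (c : Cmb X.G d)
    (b : LbD X.G d d' v u) (y1 : (99 * X.P.D : ℤ) ≤ 100 * N.X (5 * v + 4)) :
    pot X.P X.Bd (lbN X.C X.G d v u N) ≤ pot X.P X.Bd N + 3 + 3 * X.Lg +
      2 * X.C.Z * (5 / 2 - lM X.P X.Bd) := by
  obtain ⟨a1, a2, a3, a4, a5, a6⟩ := b.facts c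
  have v0 := b.v0; have mv := b.mv; have vn := b.vn
  have hE := mvsN_E (b.mv_mem h.wf c a N.X)
  have m4 := (a.mem _).2 (has4.2 ⟨vn, v0⟩)
  have m3 := (a.mem _).2 (has3.2 ⟨a1, by omega⟩)
  have m4' := (a.mem _).2 (has4.2 ⟨a1, a2⟩)
  have m1 : 5 * v + 1 ∉ N.E := by rw [a.mem, has1, mv, v0]; simp [a3]
  have m2 : 5 * u + 2 ∉ N.E := by rw [a.mem, has2]; simp [isC, a2]
  have y2 := (Inv.pos' h i a _ m4).2
  rw [a.arc _ m4, arcOf4] at y2
  obtain ⟨g1, g2⟩ := h.lb_big (v := v) (u := u) y1 (by simp only [aU] at y2; omega)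
  have c' := b.cmb c
  have A1 := h.arc c' (has1.2 ⟨vn, .inl (by simp [b.st, a3.symm])⟩)
  have A2 := h.arc c' (has2.2 ((b.isC_iff c u).2 (.inl rfl)))
  rw [← (b.on h.wf c (y := 0) (o := (5 * v + 1, false, some (capA (v + 1) (u + 1) X.C.B, 0)))
    (by simp [opL])).2.2 _ rfl] at A1
  rw [← (b.on h.wf c (y := 0) (o := (5 * u + 2, false, some (snkA X.C u 2, 0)))
    (by simp [opL])).2.2 _ rfl] at A2
  have n1 := h.bar_new A1 g1 rfl
  have n2 := bar_le_fst h.D_pos h.s0_pos A2 g2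
  have p1 := h.le_pend i a m4
  have p2 := h.le_pend i a m4'
  have p3 := Inv.bar_nonneg h i m3
  have r := (h.refunds i a c a1).2
  rw [lbN, pot_apps (nd_ids h.wf a1 a3 _)]
  simp only [opL, List.map_cons, List.sum_cons, nw_none, nw_some, old, hE, m4, m3, m4', m1, m2,
    if_true, if_false, mvsN_arc, LbD.mv_X N.X (show (5 * v + 4) % 5 ≠ 2 by omega),
    LbD.mv_X N.X (show (5 * u + 4) % 5 ≠ 2 by omega),
    LbD.mv_X N.X (show (5 * u + 3) % 5 ≠ 2 by omega), List.map_map]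
  have z : ((inL X.G d u).map ((fun o : Ox => nw (bar X.P X.Bd) o - if o.1 ∈ N.E then
      bar X.P X.Bd (N.arc o.1) ((mvsN N (mvL X.G d u N.X)).X o.1) else 0) ∘
      fun o => (5 * rv o, true, none))).sum ≤ 0 := by
    refine (List.sum_le_card_nsmul _ 0 fun q hq => ?_).trans (by simp)
    obtain ⟨o, ho, rfl⟩ := List.mem_map.1 hq
    have b1 := (inL_arcs a h.wf c a1 ho).2.1
    simp only [Function.comp, nw_none, b1, if_true,
      LbD.mv_X N.X (show (5 * rv o) % 5 ≠ 2 by omega)]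
    linarith [Inv.bar_nonneg h i b1]
  have D0 : (0 : ℝ) < X.P.D := by exact_mod_cast h.D_pos
  have M0 : (0 : ℝ) < X.Bd.Mu := by
    have := h.n_le_M; rw [← h.Mu]; exact_mod_cast (by omega : 0 < X.C.M)
  have y1' : (99 * X.P.D : ℝ) ≤ 100 * N.X (5 * v + 4) := by exact_mod_cast y1
  have l := log_sub_le (a := X.P.D) (b := N.X (5 * v + 4)) (t := 1 / 10) D0 (by linarith)
    (by linarith)
  have lm : lM X.P X.Bd = X.Lg - Real.log X.P.D := Real.log_div M0.ne' D0.ne'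
  have l' := mul_le_mul_of_nonneg_left l (by positivity : (0 : ℝ) ≤ 2 * X.C.Z)
  simp only [capA, snkA] at n1 n2 ⊢
  rw [lm] at p1 p2 ⊢
  unfold Lg at *
  push_cast at n1 n2
  rw [add_zero] at n2
  linarith

/-- **LABEL** -/
theorem labelSpec (h : X.Ok) : X.LabelSpec (labEv X.toEnv) := by
  rintro ⟨s, d⟩ N v i room - hv v0 y1
  have b := lbD_of h.wf i.cmb hv v0
  set u := d.mt.get v with hu
  generalize hd' : (Dt.mk _ _ _ _ _ _ _ _) = d' at b
  obtain ⟨a1, a2, a3, a4, a5, a6⟩ := b.facts i.cmb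
  have M := h.n_le_M; have MX := h.M_le_X; have ndl := h.wf.nd_le
  have len := len_inL (d := d) (u := u) h.wf
  have len' : ((inL X.G d u).length : ℝ) ≤ 3 := by exact_mod_cast len
  have deg := h.wf.deg u
  have rm := Room.le room (r := 100) (by have := h.Rm; omega)
  have AU : (100 : ℝ) ≤ X.k.AU := by exact_mod_cast h.AU
  have lenA := mul_le_mul_of_nonneg_left len' (by linarith : (0 : ℝ) ≤ X.k.AU)
  have m4 := (i.arcs.mem _).2 (has4.2 ⟨hv, v0⟩)
  have c' := b.cmb i.cmb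
  have y2 := (Inv.pos' h i.il.1 i.arcs _ m4).2
  rw [i.arcs.arc _ m4, arcOf4] at y2
  obtain ⟨g1, g2⟩ := h.lb_big (v := v) (u := u) y1 (by simp only [aU] at y2; omega)
  have BD := h.BD_le
  have W1 : Wd X.g.X (capA (v + 1) (u + 1) X.C.B) := by simp only [capA, Wd]; omega
  have W2 : Wd X.g.X (snkA X.C u 2) := by
    have a := h.lam_le
    have : X.C.Z ≤ X.C.Ph * X.C.Z * X.C.lam :=
      (Nat.le_mul_of_pos_left _ (lt_of_lt_of_le (by norm_num) h.Ph)).trans
        (Nat.le_mul_of_pos_right _ h.lam_pos)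
    have := h.Z_pos
    simp only [snkA, Wd]; omega
  push_cast at rm
  unfold labEv
  refine (sp_filterP _ _).bind fun l t0 ⟨el, f0⟩ => ?_
  change l = inL X.G d u at el
  subst el
  refine (sp_mapL' (fun o => 5 * rv o) (fun _ => 0) fun o ho => sp_nat.2 ⟨by
    have := h.wf.rv_lt ((mem_inL h.wf a1).1 ho).1; omega, rfl, le_rfl⟩).bind
    fun ids t1 ⟨ei, f1⟩ => ?_
  subst ei
  rw [sp_bind, sp_nat]
  refine ⟨by omega, (sp_gets h.ip i.il.1 _ (by simp; linarith) fun e he => ?_).bind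
    fun r t2 ⟨i2, x2, n2, _, u2⟩ => ?_⟩
  · rcases List.mem_cons.1 he with rfl | he
    · exact m4
    · obtain ⟨o, ho, rfl⟩ := List.mem_map.1 he
      exact (inL_arcs i.arcs h.wf i.cmb a1 ho).2.1
  refine (sp_mapL' (fun o => (5 * d.cls.get (X.G.hd o) + 2, N.X (5 * rv o))) (fun _ => 0)
    fun o ho => ?_).bind fun m t3 ⟨em, f3⟩ => ?_
  · refine ⟨by have := (inL_arcs i.arcs h.wf i.cmb a1 ho).1.1; omega, ?_, le_rfl⟩
    rw [x2, if_pos (List.mem_cons_of_mem _ (List.mem_map_of_mem ho))]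
  change m = mvL X.G d u N.X at em
  subst em
  have lm : ((mvL X.G d u N.X).length : ℝ) = (inL X.G d u).length := by simp [mvL]
  have P2 := u2.phi
  simp only [List.length_cons, List.length_map, Nat.cast_add, Nat.cast_one] at P2 u2
  refine (sp_mvs h.ip h.Mu_le_X i2 (by rw [lm]; linarith)
    (h.refunds i.il.1 i.arcs i.cmb a1).1).bind fun s1 t4 ⟨i4, n4, u4⟩ => ?_
  refine (sp_mapP _ _).bind fun dl t5 ⟨ed, f5⟩ => ?_
  subst ed
  simp only [sp_bind, sp_nat, sp_pure]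
  refine ⟨by omega, by omega, by omega, by omega, (sp_arcN W1).mono fun A1 t6 ⟨e1, f6⟩ =>
    (sp_arcN W2).mono fun A2 t7 ⟨e2, f7⟩ => ?_⟩
  subst e1 e2
  rw [x2, if_pos List.mem_cons_self, List.map_map]
  have P4 := u4.phi
  rw [lm] at P4 u4
  have lo : ((opL X.C X.G d v u (N.X (5 * v + 4))).length : ℝ) = (inL X.G d u).length + 5 := by
    simp [opL]; ring
  refine (sp_ops (l := opL X.C X.G d v u (N.X (5 * v + 4))) h.ip i4 (by rw [lo]; linarith)
    (oks_of_nodup (nd_ids h.wf a1 a3 _) fun o ho => ⟨?_, fun z hz => ?_⟩)).mono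
    fun s2 t8 ⟨i8, n8, u8⟩ => (sp_foldP _ _ _).mono fun p t9 ⟨ep, f9⟩ => ?_
  · rw [mvsN_E (b.mv_mem h.wf i.cmb i.arcs N.X), i.arcs.mem,
      (b.on (D := X.P.D) h.wf i.cmb ho).1]
  · obtain ⟨-, k1, k2⟩ := b.on (D := X.P.D) h.wf i.cmb ho
    refine ⟨k2 z hz ▸ h.arc c' (k1.2 (by simp [hz])), ?_⟩
    simp only [opL, List.mem_cons, List.mem_map] at ho
    rcases ho with rfl | rfl | rfl | rfl | rfl | ⟨j, -, rfl⟩ <;> cases hz
    exacts [h.dom g1, h.dom g2]
  subst ep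
  rw [hd']
  rw [lo] at u8
  refine Post.of' (r := 1) i i8 (((u2.trans u4).trans u8).mono (A' := 100 * (X.k.AU + 1)) ?_)
    (b.arcs h.wf i.cmb i.arcs) c' (b.qok h.wf i.cmb i.q) (by linarith [h.AU_le]) ?_
  · have : t0 + t1 + t3 + t5 + t6 + t7 + t9 ≤ 40 := by
      simp only [List.map_const', List.sum_replicate, smul_zero, List.length_map] at f1 f3 f5
      have g0 : t0 ≤ 2 * (X.G.adj.get u).length + 2 := f0
      have g9 : t9 = (X.G.adj.get u).length + 1 := f9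
      omega
    have : (t0 + t1 + t3 + t5 + t6 + t7 + t9 : ℝ) ≤ 40 := by exact_mod_cast this
    push_cast; linarith
  · have p := h.lb_pot i.il.1 i.arcs i.cmb b y1
    have q := b.psi (X := X) i.cmb
    have z := h.Lg_le
    have z' : (4000 * (X.C.K + 5) : ℝ) ≤ X.C.Z := by exact_mod_cast h.Z.1
    have K0 : (0 : ℝ) ≤ X.C.K := by positivity
    have l2 := mul_le_mul_of_nonneg_left Real.log_two_lt_d9.le (by positivity : (0 : ℝ) ≤ X.C.Z)
    change _ + (pot X.P X.Bd (lbN X.C X.G d v u N) + _) ≤ _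
    linarith

end Cx

end Crest.Agent.N325.P2
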