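import Crest.Agent.N325.Lb.Ev
import Crest.Agent.N325.P2.Rp

/-!
# Row 325 (helper53): LABEL is implementable
-/

set_option autoImplicit false

namespace Crest.Agent.N325.P2

variable {T : Type} [Rp T]

theorem impl_labEv : Impl fun p : Env T × S T × ℕ => labEv p.1 p.2.1 p.2.2 := by
  unfold labEv; impl

end Crest.Agent.N325.P2
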