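import Crest.Agent.N325.P2.Util
import Crest.Agent.N325.Lb.Bar
import Crest.Agent.N325.Lb.Cmb

/-!
# Row 325 (helper53): LABEL — the network
-/

set_option autoImplicit false
open Finset

namespace Crest.Agent.N325.Lb

open Crest.Agent.N325.Ip Crest.Agent.N325.Mt Crest.Agent.N325.Bf Crest.Agent.N325.P2
  Crest.Agent.N325.Op

variable {D : ℕ} {C : Cf} {G : Gf} {d d' : Dt} {v u : ℕ} {N : Net}

/-- the only arc into a class is its entry arc -/
theorem into_class (a : Arcs D C G d N) (c : Cmb G d) {w e : ℕ} (hw : isC G d w) (he : e ∈ N.E)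
    (hb : (N.arc e).b = w + 1) : e = 5 * d.mt.get (d.bs.get w) + 1 := by
  have k := (a.mem e).1 he
  rw [a.arc e he] at hb
  have s := hw.2.1
  obtain ⟨i, rfl | rfl | rfl | rfl | rfl⟩ := id_cases e
  · rw [has0] at k
    simp only [arcOf0, aP, capA, add_left_inj] at hb
    exact absurd (hb ▸ s) (c.pr i k.1 k.2).2.1
  · rw [has1] at k
    simp only [arcOf1, aE, capA, add_left_inj] at hb
    rcases k.2 with q | q
    · rw [← hb, (c.inn i k.1 q).2, c.mt_mt k.1]
    · rw [← hb, q, (c.root k.1 q).2, q]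
  · simp [arcOf2, snkA] at hb
  · rw [has3] at k
    simp only [arcOf3, aG, add_left_inj] at hb
    exact absurd (hb ▸ s) k.2
  · simp [arcOf4, aU] at hb

/-- the flow out of a class is at most `B` -/
theorem ouf_le (a : Arcs D C G d N) (c : Cmb G d)
    (p : ∀ e ∈ N.E, N.X e < (N.arc e).o3) {w : ℕ} (hw : isC G d w) : ouf N (w + 1) ≤ C.B := by
  have z := a.cons (w + 1) (by omega)
  rw [dv_eq, sub_eq_zero] at z
  rw [← z]; unfold Op.inf
  rcases (N.E.filter fun e => (N.arc e).b = w + 1).eq_empty_or_nonempty with k | ⟨e, k⟩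
  · rw [k, sum_empty]; positivity
  · have f := fun i (hi : i ∈ N.E.filter fun e => (N.arc e).b = w + 1) =>
      into_class a c hw (mem_filter.1 hi).1 (mem_filter.1 hi).2
    rw [eq_singleton_iff_unique_mem.2 ⟨k, fun i hi => (f i hi).trans (f e k).symm⟩, sum_singleton]
    have he := (mem_filter.1 k).1
    have := p e he
    rw [a.arc e he, f e k, arcOf1] at this
    rw [f e k]
    exact this.le

theorem out_le (a : Arcs D C G d N) (c : Cmb G d)
    (p : ∀ e ∈ N.E, 0 < N.X e ∧ N.X e < (N.arc e).o3) {w e : ℕ} (hw : isC G d w) (he : e ∈ N.E)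
    (ha : (N.arc e).a = w + 1) : N.X e ≤ C.B :=
  (single_le_sum (f := N.X) (fun i hi => (p i (mem_filter.1 hi).1).1.le)
    (mem_filter.2 ⟨he, ha⟩)).trans (ouf_le a c (fun e he => (p e he).2) hw)

/-- if all arcs with a non-zero value are rewritten only the new values count -/
theorem tot_cover {M : Type} [AddCommGroup M] (f : Arc → ℤ → M) {l : List Ox}
    (nd : (l.map Prod.fst).Nodup)
    (h : ∀ e ∈ N.E, e ∉ l.map Prod.fst → f (N.arc e) (N.X e) = 0) :
    tot f (apps N l) = (l.map (nw f)).sum := by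
  induction l generalizing N with
  | nil => exact sum_eq_zero fun e he => h e he (by simp)
  | cons o l ih =>
    rw [List.map_cons, List.nodup_cons] at nd
    have k := tot_apps f nd.2 (app N o)
    have k0 := tot_apps f nd.2 (N.del o.1)
    have k1 := ih (N := N.del o.1) nd.2 fun e he ne => h e (mem_of_mem_erase he) (by
      simp only [List.map_cons, List.mem_cons, not_or]; exact ⟨ne_of_mem_erase he, ne⟩)
    have e : (l.map fun p => nw f p - old f (app N o) p.1) =
        l.map fun p => nw f p - old f (N.del o.1) p.1 := List.map_congr_left fun p hp => by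
      have ne : p.1 ≠ o.1 := fun c => nd.1 (c ▸ List.mem_map_of_mem hp)
      obtain ⟨x, y, z⟩ := app_ne (N := N) ne
      simp only [old, x, y, z, del_E, del_arc, del_X, mem_erase, ne, ne_eq, not_false_eq_true,
        true_and]
    rw [apps_cons, k, e, tot_app, List.map_cons, List.sum_cons, ← k1, k0, tot_del]
    abel

/-- the darts out of `u` whose reverse is a plain arc -/
def inL (G : Gf) (d : Dt) (u : ℕ) : List ℕ := (G.adj.get u).filter fun o => d.pr.get (rv o)
/-- the refunds -/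
def mvL (G : Gf) (d : Dt) (u : ℕ) (x : ℕ → ℤ) : List (ℕ × ℤ) :=
  (inL G d u).map fun o => (5 * d.cls.get (G.hd o) + 2, x (5 * rv o))
/-- the operations -/
def opL (C : Cf) (G : Gf) (d : Dt) (v u : ℕ) (y : ℤ) : List Ox :=
  (5 * v + 4, true, none) :: (5 * u + 3, true, none) :: (5 * u + 4, true, none) ::
    (5 * v + 1, false, some (capA (v + 1) (u + 1) C.B, y)) ::
    (5 * u + 2, false, some (snkA C u 2, y)) :: (inL G d u).map fun o => (5 * rv o, true, none)
/-- the new network -/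
def lbN (C : Cf) (G : Gf) (d : Dt) (v u : ℕ) (N : Net) : Net :=
  apps (mvsN N (mvL G d u N.X)) (opL C G d v u (N.X (5 * v + 4)))

theorem mem_inL (w : G.WF) (hu : u < G.n) {o : ℕ} :
    o ∈ inL G d u ↔ o < G.nd ∧ G.tl.get o = u ∧ d.pr.get (rv o) = true := by
  rw [inL, List.mem_filter, w.mem u hu, and_assoc]
theorem len_inL (w : G.WF) : (inL G d u).length ≤ 3 :=
  (List.length_filter_le _ _).trans (w.deg u)

theorem mem_ids {y : ℤ} {e : ℕ} : e ∈ (opL C G d v u y).map Prod.fst ↔ e = 5 * v + 4 ∨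
    e = 5 * u + 3 ∨ e = 5 * u + 4 ∨ e = 5 * v + 1 ∨ e = 5 * u + 2 ∨
      ∃ o ∈ inL G d u, 5 * rv o = e := by
  simp [opL]

theorem nd_ids (w : G.WF) (hu : u < G.n) (ne : u ≠ v) (y : ℤ) :
    ((opL C G d v u y).map Prod.fst).Nodup := by
  have : ((inL G d u).map fun o => 5 * rv o).Nodup :=
    ((w.nodup u hu).filter _).map fun a b e => by
      have : rv a = rv b := by omega
      rw [← rv_rv a, this, rv_rv]
  simp only [opL, List.map_cons, List.map_map, List.nodup_cons, List.mem_cons, List.mem_map,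
    Function.comp_def, not_or, not_exists, not_and]
  refine ⟨?_, ?_, ?_, ?_, ?_, this⟩
  all_goals (repeat' apply And.intro) <;> intros <;> omega

/-- the plain arc into `u` and the sink of its tail -/
theorem inL_arcs (a : Arcs D C G d N) (w : G.WF) (c : Cmb G d) (hu : u < G.n) {o : ℕ}
    (ho : o ∈ inL G d u) : isC G d (d.cls.get (G.hd o)) ∧ 5 * rv o ∈ N.E ∧
      N.arc (5 * rv o) = capA (d.cls.get (G.hd o) + 1) (u + 1) C.M ∧
      5 * d.cls.get (G.hd o) + 2 ∈ N.E ∧ N.arc (5 * d.cls.get (G.hd o) + 2) =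
        snkA C (d.cls.get (G.hd o)) (d.cw.get (d.cls.get (G.hd o)) + 1) := by
  obtain ⟨p, q, r⟩ := (mem_inL w hu).1 ho
  have i := c.out _ (w.hd_lt p) (c.pr _ (w.rv_lt p) r).1
  have m1 := (a.mem _).2 (has0.2 ⟨w.rv_lt p, r⟩)
  have m2 := (a.mem _).2 (has2.2 i)
  refine ⟨i, m1, ?_, m2, by rw [a.arc _ m2, arcOf2]⟩
  rw [a.arc _ m1, arcOf0, aP, Gf.hd_rv, q]; rfl

namespace LbD

theorem off (h : LbD G d d' v u) (w : G.WF) (c : Cmb G d) {y : ℤ} {e : ℕ}
    (k : e ∉ (opL C G d v u y).map Prod.fst) : (has G d' e ↔ has G d e) ∧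
      (has G d e → arcOf D C G d' e = arcOf D C G d e) := by
  obtain ⟨a1, a2, a3, a4, a5, a6⟩ := h.facts c
  have v0 := h.v0; have mv := h.mv
  simp only [mem_ids, not_or, not_exists, not_and] at k
  obtain ⟨k1, k2, k3, k4, k5, k6⟩ := k
  obtain ⟨i, rfl | rfl | rfl | rfl | rfl⟩ := id_cases e
  · refine ⟨?_, fun _ => by rw [arcOf0, arcOf0, aP, aP, h.cls]⟩
    rw [has0, has0]
    refine and_congr_right fun hi => ?_
    rw [h.pr i hi]
    split_ifs with q
    · refine ⟨fun z => (nomatch z), fun z => absurd (by rw [rv_rv]) (k6 (rv i) ?_)⟩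
      exact (mem_inL w a1).2 ⟨w.rv_lt hi, q, by rwa [rv_rv]⟩
    · rfl
  · refine ⟨?_, fun _ => by rw [arcOf1, arcOf1, aE, aE, h.cls, h.mt]⟩
    rw [has1, has1, h.mt, h.st, if_neg (by omega : ¬i = v)]
    split_ifs with q
    · simp [q, a2]
    · rfl
  · have q : i ≠ u := by omega
    exact ⟨by simp [has2, h.isC_iff c, q], fun _ => by rw [arcOf2, arcOf2, h.cw, if_neg q]⟩
  · refine ⟨?_, fun _ => by rw [arcOf3, arcOf3]⟩
    rw [has3, has3, h.st, if_neg (by omega : ¬i = u)]
    split_ifs with q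
    · simp [q, v0]
    · rfl
  · refine ⟨?_, fun _ => by rw [arcOf4, arcOf4]⟩
    rw [has4, has4, h.st, if_neg (by omega : ¬i = u), if_neg (by omega : ¬i = v)]

theorem on (h : LbD G d d' v u) (w : G.WF) (c : Cmb G d) {y : ℤ} {o : Ox}
    (k : o ∈ opL C G d v u y) : (has G d o.1 ↔ o.2.1 = true) ∧ (has G d' o.1 ↔ o.2.2 ≠ none) ∧
      ∀ z, o.2.2 = some z → z.1 = arcOf D C G d' o.1 := by
  obtain ⟨a1, a2, a3, a4, a5, a6⟩ := h.facts c
  have v0 := h.v0; have mv := h.mv; have vn := h.vn; have a3' := a3.symm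
  simp only [opL, List.mem_cons, List.mem_map] at k
  rcases k with rfl | rfl | rfl | rfl | rfl | ⟨i, hi, rfl⟩
  · simp [has4, h.st, *]
  · simp [has3, h.st, *]
  · simp [has4, h.st, *]
  · simp [has1, h.st, arcOf1, aE, h.mt, h.cls, *]
  · simp only [has2, h.isC_iff c]
    simp [arcOf2, h.cw, isC, *]
  · obtain ⟨p, q, r⟩ := (mem_inL w a1).1 hi
    simp [has0, h.pr _ (w.rv_lt p), w.rv_lt p, q, r]

theorem mv_mem (h : LbD G d d' v u) (w : G.WF) (c : Cmb G d) (a : Arcs D C G d N) (x : ℕ → ℤ) :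
    ∀ p ∈ mvL G d u x, p.1 ∈ N.E := fun p hp => by
  obtain ⟨o, ho, rfl⟩ := List.mem_map.1 hp
  exact (inL_arcs a w c (h.facts c).1 ho).2.2.2.1

theorem mv_X (x : ℕ → ℤ) {e : ℕ} (k : e % 5 ≠ 2) : (mvsN N (mvL G d u x)).X e = N.X e := by
  rw [mvsN_X, List.sum_eq_zero, add_zero]
  intro z hz
  obtain ⟨p, hp, rfl⟩ := List.mem_map.1 hz
  obtain ⟨o, -, rfl⟩ := List.mem_map.1 hp
  exact if_neg (by simp only; omega)

theorem cons (h : LbD G d d' v u) (w : G.WF) (c : Cmb G d) (a : Arcs D C G d N) :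
    Cons (lbN C G d v u N) := by
  obtain ⟨a1, a2, a3, a4, a5, a6⟩ := h.facts c
  have v0 := h.v0; have mv := h.mv; have vn := h.vn
  have nd := nd_ids (C := C) (d := d) w a1 a3 (N.X (5 * v + 4))
  have hE := mvsN_E (h.mv_mem w c a N.X)
  intro z hz
  by_cases ez : z = u + 1
  · rw [lbN, dv, tot_cover _ nd fun e he k => ?_]
    · simp [opL, ct, capA, snkA, ez, a3.symm, Function.comp_def]
    · rw [hE] at he
      have q := (a.mem _).1 he
      rw [mvsN_arc, a.arc _ he, ez]
      simp only [mem_ids, not_or, not_exists, not_and] at k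
      obtain ⟨k1, k2, k3, k4, k5, k6⟩ := k
      have cu : ∀ i < G.n, d.st.get i = 2 → d.cls.get i ≠ u := fun i p r =>
        (h.ne_of_isC c (c.out i p r)).1
      obtain ⟨i, rfl | rfl | rfl | rfl | rfl⟩ := id_cases e
      · rw [has0] at q
        have : G.hd i ≠ u := fun r => k6 (rv i) ((mem_inL w a1).2 ⟨w.rv_lt q.1, r, by
          rw [rv_rv]; exact q.2⟩) (by rw [rv_rv])
        simp [arcOf0, aP, capA, ct, this, cu _ (w.tl_lt i q.1) (c.pr i q.1 q.2).1]
      · rw [has1] at q
        have x1 : i ≠ u := fun r => by rw [r, a2, a4] at q; omega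
        have x2 : d.st.get (d.mt.get i) = 2 := q.2.elim (fun r => (c.inn i q.1 r).1) fun r => by
          rw [r]; exact (c.root q.1 r).1
        simp only [arcOf1, aE, capA, ct]
        have x3 : ¬(if d.mt.get i = i then 0 else i + 1) = u + 1 := by split <;> omega
        rw [if_neg x3, if_neg (by have := cu _ (c.mt_lt q.1) x2; omega), sub_zero]
      · have : i ≠ u := by omega
        simp [arcOf2, snkA, ct, this]
      · have : i ≠ u := by omega
        simp [arcOf3, aG, ct, this]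
      · have : i ≠ u := by omega
        simp [arcOf4, aU, ct, this]
  · have m4 := (a.mem _).2 (has4.2 ⟨vn, v0⟩)
    have m3 := (a.mem _).2 (has3.2 ⟨a1, by omega⟩)
    have m4' := (a.mem _).2 (has4.2 ⟨a1, a2⟩)
    have m1 : 5 * v + 1 ∉ N.E := by rw [a.mem, has1, mv, v0]; simp [a3]
    have m2 : 5 * u + 2 ∉ N.E := by rw [a.mem, has2]; simp [isC, a2]
    have e' : ¬u + 1 = z := fun q => ez q.symm
    have hz' : ¬0 = z := fun q => hz q.symm
    rw [lbN, dv_apps nd, dv_mvsN (h.mv_mem w c a N.X), a.cons z hz, zero_add]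
    simp only [opL, List.map_cons, List.sum_cons, nw_none, nw_some, old, hE, m4, m3, m4', m1, m2,
      if_true, if_false, mvsN_arc, a.arc _ m4, a.arc _ m3, a.arc _ m4', arcOf4, arcOf3,
      mv_X N.X (show (5 * v + 4) % 5 ≠ 2 by omega), List.map_map]
    have s : ((mvL G d u N.X).map fun p : ℕ × ℤ => ct z (N.arc p.1) p.2).sum + ((inL G d u).map
        ((fun o : Ox => nw (ct z) o - if o.1 ∈ N.E then ct z (N.arc o.1)
          ((mvsN N (mvL G d u N.X)).X o.1) else 0) ∘ fun o => (5 * rv o, true, none))).sum = 0 := by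
      rw [show ((mvL G d u N.X).map fun p : ℕ × ℤ => ct z (N.arc p.1) p.2) = _ from List.map_map,
        ← List.sum_map_add]
      refine List.sum_eq_zero fun q hq => ?_
      obtain ⟨o, ho, rfl⟩ := List.mem_map.1 hq
      obtain ⟨-, b1, b2, -, b3⟩ := inL_arcs a w c a1 ho
      simp only [Function.comp, nw_none, b1, if_true, b2, b3,
        mv_X N.X (show (5 * rv o) % 5 ≠ 2 by omega), ct, snkA, capA, e', hz', if_false]
      ring
    generalize List.sum (α := ℤ) (List.map _ (mvL G d u N.X)) = p at s ⊢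
    generalize List.sum (α := ℤ) (List.map _ (inL G d u)) = q at s ⊢
    simp only [ct, aU, aG, capA, snkA, e', hz', if_false]
    split_ifs <;> omega

theorem arcs (h : LbD G d d' v u) (w : G.WF) (c : Cmb G d) (a : Arcs D C G d N) :
    Arcs D C G d' (lbN C G d v u N) := by
  have nd := nd_ids (C := C) (d := d) w (h.facts c).1 (h.facts c).2.2.1 (N.X (5 * v + 4))
  have hE := mvsN_E (h.mv_mem w c a N.X)
  refine .of (fun e => ?_) (fun e he => ?_) (h.cons w c a)
  · by_cases k : e ∈ (opL C G d v u (N.X (5 * v + 4))).map Prod.fst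
    · obtain ⟨o, ho, rfl⟩ := List.mem_map.1 k
      rw [lbN, (apps_mem nd ho).1, (h.on (D := D) w c ho).2.1]
    · rw [lbN, (apps_ne k).1, hE, a.mem, (h.off (D := D) w c k).1]
  · by_cases k : e ∈ (opL C G d v u (N.X (5 * v + 4))).map Prod.fst
    · obtain ⟨o, ho, rfl⟩ := List.mem_map.1 k
      obtain ⟨z, hz⟩ := Option.ne_none_iff_exists'.1 ((apps_mem nd ho).1.1 he)
      rw [lbN, ((apps_mem nd ho).2 z hz).1, (h.on w c ho).2.2 z hz]
    · have := (apps_ne k).1.1 he
      rw [hE] at this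
      rw [lbN, (apps_ne k).2.1, mvsN_arc, a.arc e this, (h.off w c k).2 ((a.mem e).1 this)]

end LbD

end Crest.Agent.N325.Lb
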